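import Vale.Agent.P256.Conical.Main

/-!
# P256: hyperbolicity cones with isolated conical singularities are spectrahedral shadows
-/

namespace Vale.Agent.Results.P256.ConicalSingularities

open MvPolynomial Vale.Agent.P256

/-- A pointed hyperbolicity cone is a spectrahedral shadow if no boundary segment joins two
non-proportional singular boundary points and, at every singular boundary point `v`, the tangent
cone (the cone of the lowest Taylor form of `p` at `v`) is singular only along `ℝ v`. -/
theorem result {n : ℕ} (p : MvPolynomial (Fin n) ℝ) (e : Fin n → ℝ) (hp : IsHyperbolic p e)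
    (hpointed : ∀ x ∈ hypCone p e, -x ∈ hypCone p e → x = 0)
    (hseg : ∀ a ∈ hypCone p e, ∀ b ∈ hypCone p e, a ≠ 0 → b ≠ 0 →
      eval a p = 0 → eval b p = 0 →
      (∀ i, eval a (pderiv i p) = 0) → (∀ i, eval b (pderiv i p) = 0) →
      (∀ t ∈ Set.Icc (0 : ℝ) 1, eval ((1 - t) • a + t • b) p = 0) → ∃ c : ℝ, b = c • a)
    (hloc : ∀ v ∈ hypCone p e, v ≠ 0 → eval v p = 0 → (∀ i, eval v (pderiv i p) = 0) →
      ∀ m : ℕ, homogeneousComponent m (bind₁ (fun i => C (v i) + X i) p) ≠ 0 →
        (∀ j < m, homogeneousComponent j (bind₁ (fun i => C (v i) + X i) p) = 0) →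
        ∀ x ∈ hypCone (homogeneousComponent m (bind₁ (fun i => C (v i) + X i) p)) e,
          eval x (homogeneousComponent m (bind₁ (fun i => C (v i) + X i) p)) = 0 →
          (∀ i, eval x (pderiv i (homogeneousComponent m (bind₁ (fun i => C (v i) + X i) p))) = 0) →
          ∃ c : ℝ, x = c • v) :
    IsShadow (hypCone p e) := by
  obtain ⟨d, hb, hcone⟩ := Conical.hb_of_isHyperbolic hp
  rw [hcone] at hpointed hseg hloc ⊢
  rcases Nat.eq_zero_or_pos d with hd | hd
  · -- degree zero: the cone is the whole space, hence `n = 0`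
    have hall : ∀ x : Fin n → ℝ, x ∈ Conical.cone p e := fun x k => by
      rcases Nat.eq_zero_or_pos k with rfl | hk
      · rw [← hd, Conical.lc_top hb.hom]; exact hb.pos.le
      · rw [Conical.lc_eq_zero hb.hom.totalDegree_le (by omega)]
    have h0 : ∀ x : Fin n → ℝ, x = 0 := fun x => hpointed x (hall x) (hall (-x))
    have : (Conical.Piece.ray e).set = Conical.cone p e := by
      refine Set.Subset.antisymm (Conical.Piece.ray_subset e fun t _ => hall _) fun x _ => ?_
      rw [h0 x, ← zero_smul ℝ e]
      exact Conical.Piece.mem_ray e le_rfl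
    rw [← this]
    exact Conical.Piece.isShadow _
  refine Conical.Hyp.isShadow (d := d) ⟨hb, hpointed, hd, ?_, ?_⟩
  · rintro a b ⟨ha, ha0, hap, ha1⟩ ⟨hb', hb0, hbp, hb1⟩ hab
    exact hseg a ha b hb' ha0 hb0 hap hbp ((hb.sing_iff ha).1 ha1) ((hb.sing_iff hb').1 hb1)
      fun t _ => hb.span_zero ha hb' hab _ _
  · rintro v ⟨hv, hv0, hvp, hv1⟩ m hm hlow x hx hx0 hx1
    have hq := hb.tp_hb hv hm hlow
    obtain ⟨d', hb'', hc⟩ := Conical.hb_of_isHyperbolic (p := Conical.tp p v m) (e := e)
      ⟨⟨m, hq.hom⟩, hq.pos, fun y z hz => by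
        have h1 : aeval (fun i => z * (e i : ℂ) - (y i : ℂ)) (Conical.tp p v m) =
            (-1) ^ m * Polynomial.aeval (-z) (Conical.line (Conical.tp p v m) y e) := by
          rw [Conical.aeval_line, ← Conical.aeval_smul hq.hom]
          congr 2
          funext i; simp; ring
        rw [h1] at hz
        simpa using hq.rr y _ ((mul_eq_zero.1 hz).resolve_left (pow_ne_zero _ (by norm_num)))⟩
    exact hloc v hv hv0 hvp ((hb.sing_iff hv).1 hv1) m hm hlow x (by change x ∈ hypCone (Conical.tp p v m) e; rw [hc]; exact hx) hx0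
      ((hq.sing_iff hx).1 hx1)

end Vale.Agent.Results.P256.ConicalSingularities
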