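import Vale.Agent.P256.Cubic.Frame

/-!
# P256: cubic hyperbolicity cones with a singular point and a polar quadric in three variables
-/

namespace Vale.Agent.Results.P256.CubicPolarRank3

open MvPolynomial Vale.Agent.P256

/-- Let `p` be a hyperbolic cubic in any number of variables with a singular point `v` in its
cone, such that the polar quadric `q = D_v p` takes a negative value and factors through a linear
map to three variables. Then the cone is a spectrahedral shadow. -/
theorem result {n : ℕ} (p : MvPolynomial (Fin n) ℝ) (e v : Fin n → ℝ)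
    (hp : IsHyperbolic p e) (h3 : p.IsHomogeneous 3)
    (hv : v ∈ hypCone p e) (hv0 : eval v p = 0) (hv1 : ∀ i : Fin n, eval v (pderiv i p) = 0)
    (q : (Fin n → ℝ) → ℝ) (hq : ∀ x, q x = ∑ i, v i * eval x (pderiv i p))
    (hneg : ∃ x, q x < 0)
    (π : (Fin n → ℝ) →ₗ[ℝ] Fin 3 → ℝ) (Q : (Fin 3 → ℝ) → ℝ) (hrank : ∀ x, q x = Q (π x)) :
    IsShadow (hypCone p e) := by
  obtain ⟨d, hb, hcone⟩ := Conical.hb_of_isHyperbolic hp
  have hp0 : p ≠ 0 := by rintro rfl; exact lt_irrefl (0 : ℝ) (by simpa using hp.2.1)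
  obtain rfl : d = 3 := hb.hom.inj_right h3 hp0
  rw [hcone] at hv ⊢
  have hqH : ∀ x, q x = Cubic.Hb p v x x := fun x => by
    rw [hq, Cubic.Hb_self, Conical.lc_reflect h3 (by norm_num), Conical.lc_one]; rfl
  have hS : Cubic.Sing3 p e v := ⟨hb, hv, hv0, hv1, by
    obtain ⟨x, hx⟩ := hneg
    exact ⟨x, by rw [← Cubic.Hb_self, ← hqH]; exact hx⟩⟩
  exact hS.shadow_rank π Q fun x => by rw [← hqH]; exact hrank x

end Vale.Agent.Results.P256.CubicPolarRank3
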