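import Vale.Agent.P256.Cubic.Main

/-!
# P256: cubic hyperbolicity cones with a singular boundary point and a sum-of-squares residual
-/

namespace Vale.Agent.Results.P256.CubicSingularPoint

open MvPolynomial Matrix Vale.Agent.P256

/-- Let `p` be a hyperbolic cubic, `v` a singular point of its cone, `q = D_v p` not nonnegative,
`l v = 1` and `τ` a linear form positive at the null points `y` of `q` with `(D_e q) y > 0`.
If `τ · (-p (y - l y • v))` is a sum of squares of quadrics modulo `q`, the cone is a shadow. -/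
theorem result {n k : ℕ} (p : MvPolynomial (Fin n) ℝ) (e v : Fin n → ℝ)
    (hp : IsHyperbolic p e) (h3 : p.IsHomogeneous 3)
    (hv : v ∈ hypCone p e) (hv0 : eval v p = 0) (hv1 : ∀ i : Fin n, eval v (pderiv i p) = 0)
    (q : (Fin n → ℝ) → ℝ) (hq : ∀ x, q x = ∑ i, v i * eval x (pderiv i p))
    (hneg : ∃ x, q x < 0)
    (l τ : (Fin n → ℝ) →ₗ[ℝ] ℝ) (hl : l v = 1)
    (hτ : ∀ y : Fin n → ℝ, q y = 0 → 0 < q (y + e) - q y - q e → 0 < τ y)
    (Φ : Fin k → Matrix (Fin n) (Fin n) ℝ) (G : Matrix (Fin n) (Fin n) ℝ)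
    (hsos : ∀ y : Fin n → ℝ, τ y * -eval (y - l y • v) p =
      ∑ i, (y ⬝ᵥ (Φ i *ᵥ y)) ^ 2 + q y * (y ⬝ᵥ (G *ᵥ y))) :
    IsShadow (hypCone p e) := by
  obtain ⟨d, hb, hcone⟩ := Conical.hb_of_isHyperbolic hp
  have hp0 : p ≠ 0 := by rintro rfl; exact lt_irrefl (0 : ℝ) (by simpa using hp.2.1)
  obtain rfl : d = 3 := hb.hom.inj_right h3 hp0
  rw [hcone] at hv ⊢
  have hqH : ∀ x, q x = Cubic.Hb p v x x := fun x => by
    rw [hq, Cubic.Hb_self, Conical.lc_reflect h3 (by norm_num), Conical.lc_one]; rfl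
  have hS : Cubic.Sing3 p e v := ⟨hb, hv, hv0, hv1, by
    obtain ⟨x, hx⟩ := hneg
    exact ⟨x, by rw [← Cubic.Hb_self, ← hqH]; exact hx⟩⟩
  exact Cubic.Node.isShadow
    { hS with
      l := l, τ := τ, Φ := Φ, G := G, hl := hl
      hτ := fun y h0 he => hτ y (by rw [hqH]; exact h0) (by
        rw [hqH, hqH, hqH]
        simp only [map_add, LinearMap.add_apply, Cubic.Hb_symm (p := p) (v := v) y e]
        linarith)
      hsos := fun y => by rw [← hqH]; exact hsos y }

end Vale.Agent.Results.P256.CubicSingularPoint
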