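import Vale.Agent.P256.Lift

/-!
# P256: semidefinite lifts of hyperbolicity cones built from positive maps
-/

namespace Vale.Agent.Results.P256.PositiveMapLift

open Matrix MvPolynomial Vale.Agent.P256

/-- For a definite pencil `A`, a linear `b` vanishing at `e`, a definite pencil `L` and a positive
faithful map `Φ` (not assumed completely positive), the polynomial
`det A * det (det A • L - Φ (b adj A bᵀ))` is hyperbolic and its cone has a semidefinite lift. -/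
theorem result {n m s r : ℕ} (e : Fin n → ℝ)
    (A : (Fin n → ℝ) →ₗ[ℝ] Matrix (Fin m) (Fin m) ℝ)
    (L : (Fin n → ℝ) →ₗ[ℝ] Matrix (Fin r) (Fin r) ℝ)
    (b : (Fin n → ℝ) →ₗ[ℝ] Matrix (Fin s) (Fin m) ℝ)
    (Φ : Matrix (Fin s) (Fin s) ℝ →ₗ[ℝ] Matrix (Fin r) (Fin r) ℝ)
    (hA : ∀ x, (A x).IsSymm) (hL : ∀ x, (L x).IsSymm)
    (hAe : (A e).PosDef) (hLe : (L e).PosDef) (hbe : b e = 0)
    (hΦ : ∀ Y, Y.PosSemidef → (Φ Y).PosSemidef)
    (hΦ0 : ∀ Y, Y.PosSemidef → Φ Y = 0 → Y = 0) :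
    ∃ p : MvPolynomial (Fin n) ℝ,
      (∀ x, eval x p = (A x).det *
        ((A x).det • L x - Φ (b x * (A x).adjugate * (b x)ᵀ)).det) ∧
      IsHyperbolic p e ∧ IsShadow (hypCone p e) ∧
      hypCone p e = {x | ∃ Y : Matrix (Fin s) (Fin s) ℝ,
        (fromBlocks Y (b x) (b x)ᵀ (A x)).PosSemidef ∧ (L x - Φ Y).PosSemidef} :=
  let D : Data n m s r := ⟨e, A, L, b, Φ, hA, hL, hAe, hLe, hbe, hΦ, hΦ0⟩
  ⟨D.poly, D.eval_poly, D.hyperbolic, D.shadow, D.hypCone_eq⟩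

end Vale.Agent.Results.P256.PositiveMapLift
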